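import Vale.Agent.P100.Ineq.Tri.Poly

/-!
# The three top coefficients: bounds on the first weight and their charts

On `d a ≤ al b + be c` the quadratic `c₈ a² + (c₇₁ b + c₇₀ c) a + q₀(b, c)`
is nonnegative when the six expressions of `six` are.
-/

namespace Vale.Agent.P100.Ineq.Tri

open Kron Kron.Ex

def six (d al be : Ex) : List Ex :=
  let c8 := top 8 0
  let c71 := top 7 1
  let c70 := top 7 0
  let c62 := top 6 2
  let c61 := top 6 1
  let c60 := top 6 0
  [add (mul (mul (num 2) c62) d) (mul c71 al),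
    add (mul (mul (num 2) c61) d) (add (mul c71 be) (mul c70 al)),
    add (mul (mul (num 2) c60) d) (mul c70 be),
    add (add (mul c8 (mul al al)) (mul c71 (mul al d))) (mul c62 (mul d d)),
    add (add (mul (num 2) (mul c8 (mul al be))) (mul (add (mul c71 be) (mul c70 al)) d))
      (mul c61 (mul d d)),
    add (add (mul c8 (mul be be)) (mul c70 (mul be d))) (mul c60 (mul d d))]

def xV : Ex := sub (pow xU 2) (mul (num 6) (pow xg 3))
/-- From the upper barrier. -/
def sixB : List Ex := six xV (mul (num 6) xUN) (mul (num 6) (mul xUN xQ))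
/-- From `phi ≥ 1/2`. -/
def sixH : List Ex := six (sub xUN (mul xf xP)) (mul xfP (mul xA xu)) (mul xfP (mul xA xD))
/-- No bound needed. -/
def three : List Ex := [top 8 0, top 7 1, top 7 0]

def one1 (i : ℕ) : Ex := add (num 1) (var i)

/-- `η₁` (numerator, denominator) at `g = gn / gd`. -/
def eta1 (s gn gd : Ex) : Ex × Ex :=
  let en := sub gd (mul (num 2) gn)
  let fn := sub gd gn
  (sub (add (mul (add s (num 1)) gd) (mul fn s)) en,
    add (add gd (mul en (sub s (num 1)))) (mul fn (add s (num 4))))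

/-- `U₁ = 1 - ε η₁`. -/
def uCut (s gn gd : Ex) : Ex × Ex :=
  let p := eta1 s gn gd
  (sub (mul gd p.2) (mul (sub gd (mul (num 2) gn)) p.1), mul gd p.2)

/-- `g = (ga / gb) ^ 2`, `U` between `3 γ ^ 3` and `k / m` times `U₀`. -/
def cubeSub (ga gb : Ex) (k m : ℤ) : Sub :=
  let s := add (num 3) (var 0)
  let gn := mul ga ga
  let gd := mul gb gb
  let top := mul (mul (num (2 * k)) gb) (add (mul (num 2) gd) (mul gn s))
  ⟨s, gn, gd,
    add (mul (mul (num (3 * m)) (mul ga gn)) (add s (num 4))) (mul top (var 2)),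
    mul (mul (num m) (mul (mul gb gd) (add s (num 4)))) (one1 2)⟩

/-- `U₀` (numerator, denominator). -/
def uTop (s gn gd : Ex) : Ex × Ex :=
  (mul (num 2) (add (mul (num 2) gd) (mul gn s)), mul (add s (num 4)) gd)

def xH : Ex := sub xUN xfP

def chartCube0 : Sub :=
  let ga := mul (num 3) (var 1)
  let gb := mul (num 5) (one1 1)
  ⟨add (num 3) (var 0), mul ga ga, mul gb gb, mul (mul (num 3) (mul ga (mul ga ga))) (var 2),
    mul (mul gb (mul gb gb)) (one1 2)⟩

def chartB1 : Sub := cubeSub (mul (num 12) (var 1)) (mul (num 25) (one1 1)) 1 1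

def chartB2 : Sub :=
  cubeSub (add (num 12) (mul (num 15) (var 1))) (mul (num 25) (one1 1)) 9 10

/-- `g ∈ [144/625, 9/25]`, `U ≥ (9/10) U₀`. -/
def chartT : Sub :=
  let s := add (num 3) (var 0)
  let gn := add (num 144) (mul (num 225) (var 1))
  let gd := mul (num 625) (one1 1)
  let p := uTop s gn gd
  ⟨s, gn, gd, mul p.1 (add (num 9) (mul (num 10) (var 2))), mul (mul (num 10) p.2) (one1 2)⟩

/-- `g ≥ 9/25`, `U ≥ U₁`. -/
def chartH : Sub :=
  let s := add (num 3) (var 0)
  let gn := add (num 18) (mul (num 25) (var 1))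
  let gd := mul (num 50) (one1 1)
  let p := eta1 s gn gd
  let en := sub gd (mul (num 2) gn)
  let hn := add (mul p.1 (add s (num 4))) (mul (mul s p.2) (var 2))
  let hd := mul (mul (add s (num 4)) p.2) (one1 2)
  ⟨s, gn, gd, sub (mul gd hd) (mul en hn), mul gd hd⟩

/-- `g ∈ [9/25, S / (2 (S + 1))]`, `U ≤ U₁`. -/
def chartP : Sub :=
  let s := add (num 3) (var 0)
  let c := add s (num 1)
  let gn := add (mul (num 18) c) (mul (mul (num 25) s) (var 1))
  let gd := mul (mul (num 50) c) (one1 1)
  let p := uCut s gn gd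
  ⟨s, gn, gd, mul (var 2) p.1, mul p.2 (one1 2)⟩

/-- `g ≥ S / (2 (S + 1))`, `U ≤ U₁`. -/
def chartQ : Sub :=
  let s := add (num 3) (var 0)
  let ed := mul (add s (num 1)) (one1 1)
  let gn := sub ed (num 1)
  let gd := mul (num 2) ed
  let p := eta1 s gn gd
  let hn := add p.1 (mul (mul (add s (num 1)) p.2) (var 2))
  let hd := mul p.2 (one1 2)
  ⟨s, gn, gd, sub (mul gd hd) (mul (num 2) hn), mul gd hd⟩

/-- All substituted expressions of a list have nonnegative coefficients. -/
def checkList (c : Sub) : List Ex → Bool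
  | [] => true
  | e :: l => check 3 (hom c e).1 && checkList c l

theorem checkList_mem {c : Sub} : ∀ {l : List Ex}, checkList c l = true →
    ∀ e ∈ l, check 3 (hom c e).1 = true
  | [], _, _, h => by simp at h
  | x :: l, h, e, he => by
    simp only [checkList, Bool.and_eq_true] at h
    rcases List.mem_cons.1 he with rfl | he
    · exact h.1
    · exact checkList_mem h.2 e he

end Vale.Agent.P100.Ineq.Tri
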