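import Vale.Agent.P100.Ineq.Tri.Form
import Vale.Agent.P100.Ineq.Tri.Cut

/-!
# Coordinates in the charts
-/

namespace Vale.Agent.P100.Ineq.Tri

open Kron

noncomputable section

/-- A point of `[l, u)` as a mean. -/
theorem exists_inc {x l u : ℝ} (h₁ : l ≤ x) (h₂ : x < u) :
    ∃ t : ℝ, 0 ≤ t ∧ x = (l + u * t) / (1 + t) := by
  have ht : 0 ≤ (x - l) / (u - x) := div_nonneg (by linarith) (by linarith)
  refine ⟨_, ht, ?_⟩
  have : u - x ≠ 0 := (sub_pos.2 h₂).ne'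
  rw [eq_div_iff (by linarith)]
  field_simp
  ring

/-- A point of `(l, u]` as a mean. -/
theorem exists_dec {x l u : ℝ} (h₁ : l < x) (h₂ : x ≤ u) :
    ∃ t : ℝ, 0 ≤ t ∧ x = (u + l * t) / (1 + t) := by
  have ht : 0 ≤ (u - x) / (x - l) := div_nonneg (by linarith) (by linarith)
  refine ⟨_, ht, ?_⟩
  have : x - l ≠ 0 := (sub_pos.2 h₁).ne'
  rw [eq_div_iff (by linarith)]
  field_simp
  ring

/-- `gA = S / (2 (S + 1))`. -/
def gA (S : ℝ) : ℝ := S / (2 * (S + 1))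

/-- `U₀`. -/
def uT (S g : ℝ) : ℝ := 2 * (2 + g * S) / (S + 4)

/-- Numerator of `η₁`. -/
def e1N (S g : ℝ) : ℝ := S + 1 + (1 - g) * S - (1 - 2 * g)

/-- Denominator of `η₁`. -/
def e1D (S g : ℝ) : ℝ := 1 + (1 - 2 * g) * (S - 1) + (1 - g) * (S + 4)

/-- `U₁`. -/
def uC (S g : ℝ) : ℝ := 1 - (1 - 2 * g) * (e1N S g / e1D S g)

theorem e1D_pos {S g : ℝ} (hS : 3 < S) (hg : g < 1 / 2) : 0 < e1D S g := by
  have h1 : 0 ≤ (1 - 2 * g) * (S - 1) := mul_nonneg (by linarith) (by linarith)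
  have h2 : 0 < (1 - g) * (S + 4) := mul_pos (by linarith) (by linarith)
  unfold e1D; linarith

/-- The chart `c` takes the value `(S, g, U)`. -/
def Sub.At (c : Sub) (S g U : ℝ) : Prop :=
  ∃ σ G T : ℝ, 0 ≤ σ ∧ 0 ≤ G ∧ 0 ≤ T ∧ 0 < c.gd.ev (pt3 σ G T 0) ∧
    0 < c.ud.ev (pt3 σ G T 0) ∧ c.pt (pt3 σ G T 0) = pt3 S g U 0

theorem pt_eq {c : Sub} {σ G T S g U : ℝ} (hs : c.s.ev (pt3 σ G T 0) = S)
    (hg : c.gn.ev (pt3 σ G T 0) / c.gd.ev (pt3 σ G T 0) = g)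
    (hu : c.un.ev (pt3 σ G T 0) / c.ud.ev (pt3 σ G T 0) = U) :
    c.pt (pt3 σ G T 0) = pt3 S g U 0 := by
  funext i
  simp only [Sub.pt, hs, hg, hu, pt3]
  split_ifs <;> rfl

theorem pt3_nonneg {σ G T : ℝ} (hσ : 0 ≤ σ) (hG : 0 ≤ G) (hT : 0 ≤ T) :
    ∀ i < 3, 0 ≤ pt3 σ G T 0 i := fun i _ => by
  unfold pt3; split_ifs <;> first | assumption | rfl

theorem Sub.At.nonneg {c : Sub} {S g U : ℝ} (h : c.At S g U) {e : Ex}
    (hc : check 3 (hom c e).1 = true) : 0 ≤ e.ev (pt3 S g U 0) := by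
  obtain ⟨σ, G, T, hσ, hG, hT, hd, hu, hp⟩ := h
  exact hp ▸ nonneg_of_hom 3 c e hc _ (pt3_nonneg hσ hG hT) hd hu

theorem eta1_ev {s gn gd : Ex} {v : ℕ → ℝ} {S g : ℝ} (hs : s.ev v = S)
    (hg : gn.ev v = g * gd.ev v) :
    (eta1 s gn gd).1.ev v = gd.ev v * e1N S g ∧ (eta1 s gn gd).2.ev v = gd.ev v * e1D S g := by
  simp only [eta1, Ex.ev, e1N, e1D, hs, hg]
  push_cast
  constructor <;> ring

variable {S g U : ℝ}

theorem at_cube0 (hS : 3 < S) (hg : 0 < g) (hg' : g < 9 / 25) (hU : 0 ≤ U)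
    (hU' : U < 3 * √g ^ 3) : chartCube0.At S g U := by
  have hγ := Real.sq_sqrt hg.le
  set γ := √g
  have hγ0 : 0 ≤ γ := Real.sqrt_nonneg _
  have hγ1 : γ < 3 / 5 := by
    by_contra h
    push Not at h
    have := pow_le_pow_left₀ (by norm_num) h 2
    linarith
  obtain ⟨G, hG, eG⟩ := exists_inc hγ0 hγ1
  obtain ⟨T, hT, eT⟩ := exists_inc hU hU'
  refine ⟨S - 3, G, T, by linarith, hG, hT, ?_, ?_, pt_eq ?_ ?_ ?_⟩
  · simp [chartCube0, one1, Ex.ev, pt3]; positivity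
  · simp [chartCube0, one1, Ex.ev, pt3]; positivity
  · simp [chartCube0, Ex.ev, pt3]
  · simp [chartCube0, one1, Ex.ev, pt3]
    rw [← hγ, eG]; field_simp; ring
  · simp [chartCube0, one1, Ex.ev, pt3]
    rw [eT, eG]; field_simp; ring

theorem at_cubeSub {a b : ℤ} {k m : ℤ} {lo hi : ℝ} (hS : 3 < S) (hg : 0 < g) (ha : (0 : ℝ) ≤ a)
    (hlo : lo = a / 25) (hhi : hi = b / 25) (hm : (0 : ℝ) < m)
    (h₁ : lo ≤ √g) (h₂ : √g < hi) (hU : 3 * √g ^ 3 ≤ U) (hU' : U < k / m * uT S g) :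
    (cubeSub (.add (.num a) (.mul (.num b) (.var 1))) (.mul (.num 25) (one1 1)) k m).At S g U := by
  have hγ := Real.sq_sqrt hg.le
  set γ := √g
  obtain ⟨G, hG, eG⟩ := exists_inc h₁ h₂
  obtain ⟨T, hT, eT⟩ := exists_inc hU hU'
  have hS4 : 0 < S + 4 := by linarith
  refine ⟨S - 3, G, T, by linarith, hG, hT, ?_, ?_, pt_eq ?_ ?_ ?_⟩
  · simp [cubeSub, one1, Ex.ev, pt3]; positivity
  · simp [cubeSub, one1, Ex.ev, pt3]; positivity
  · simp [cubeSub, Ex.ev, pt3]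
  · simp [cubeSub, one1, Ex.ev, pt3]
    rw [← hγ, eG, hlo, hhi]; field_simp
  · simp [cubeSub, one1, Ex.ev, pt3]
    rw [eT, uT, ← hγ, eG, hlo, hhi]; field_simp

theorem at_T (hS : 3 < S) (hg : 144 / 625 ≤ g) (hg' : g < 9 / 25)
    (hU : 9 / 10 * uT S g ≤ U) (hU' : U < uT S g) : chartT.At S g U := by
  obtain ⟨G, hG, eG⟩ := exists_inc hg hg'
  obtain ⟨T, hT, eT⟩ := exists_inc hU hU'
  have hS4 : 0 < S + 4 := by linarith
  refine ⟨S - 3, G, T, by linarith, hG, hT, ?_, ?_, pt_eq ?_ ?_ ?_⟩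
  · simp [chartT, one1, Ex.ev, pt3]; positivity
  · simp [chartT, uTop, one1, Ex.ev, pt3]; positivity
  · simp [chartT, Ex.ev, pt3]
  · simp [chartT, one1, Ex.ev, pt3]
    rw [eG]; field_simp; ring
  · simp [chartT, uTop, one1, Ex.ev, pt3]
    rw [eT, uT, eG]; field_simp; ring

theorem at_H (hS : 3 < S) (hg : 9 / 25 ≤ g) (hg' : g < 1 / 2)
    (hU : uC S g ≤ U) (hU' : U < uT S g) : chartH.At S g U := by
  have hS4 : 0 < S + 4 := by linarith
  have hε : 0 < 1 - 2 * g := by linarith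
  have hD := e1D_pos hS hg'
  have h1 : S / (S + 4) < (1 - U) / (1 - 2 * g) := by
    rw [lt_div_iff₀ hε, div_mul_eq_mul_div, div_lt_iff₀ hS4]
    rw [uT, lt_div_iff₀ hS4] at hU'
    linarith
  have h2 : (1 - U) / (1 - 2 * g) ≤ e1N S g / e1D S g := by
    rw [div_le_iff₀ hε]; unfold uC at hU; linarith
  obtain ⟨G, hG, eG⟩ := exists_inc hg hg'
  obtain ⟨T, hT, eT⟩ := exists_dec h1 h2
  have hd : chartH.gd.ev (pt3 (S - 3) G T 0) = 50 * (1 + G) := by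
    simp [chartH, one1, Ex.ev, pt3]
  have hs : chartH.s.ev (pt3 (S - 3) G T 0) = S := by simp [chartH, Ex.ev, pt3]
  have hn : chartH.gn.ev (pt3 (S - 3) G T 0) = g * chartH.gd.ev (pt3 (S - 3) G T 0) := by
    rw [hd]; simp [chartH, Ex.ev, pt3]
    rw [eG]; field_simp; ring
  have he := eta1_ev hs hn
  simp only [chartH] at hs hn he hd
  refine ⟨S - 3, G, T, by linarith, hG, hT, ?_, ?_, pt_eq ?_ ?_ ?_⟩
  · simp only [chartH, hd]; positivity
  · simp only [chartH, Ex.ev, hd, hs, he]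
    simp [one1, Ex.ev, pt3]; positivity
  · simp only [chartH, hs]
  · simp only [chartH, hn, hd]; field_simp
  · have e : U = 1 - (1 - 2 * g) * ((1 - U) / (1 - 2 * g)) := by field_simp; ring
    rw [e, eT]
    simp only [chartH, Ex.ev, hd, hs, hn, he]
    simp [one1, Ex.ev, pt3]
    generalize e1N S g = n₁, e1D S g = d₁ at *
    rw [eG]
    field_simp
    ring

theorem at_P (hS : 3 < S) (hg : 9 / 25 ≤ g) (hg' : g < gA S) (hU : 0 ≤ U) (hU' : U < uC S g) :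
    chartP.At S g U := by
  have hg2 : g < 1 / 2 := by
    refine hg'.trans ?_
    rw [gA, div_lt_iff₀ (by linarith)]; linarith
  have hD := e1D_pos hS hg2
  obtain ⟨G, hG, eG⟩ := exists_inc hg hg'
  obtain ⟨T, hT, eT⟩ := exists_inc hU hU'
  have hS1 : 0 < S + 1 := by linarith
  have hd : chartP.gd.ev (pt3 (S - 3) G T 0) = 50 * (S + 1) * (1 + G) := by
    simp [chartP, one1, Ex.ev, pt3]
  have hs : chartP.s.ev (pt3 (S - 3) G T 0) = S := by simp [chartP, Ex.ev, pt3]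
  have hn : chartP.gn.ev (pt3 (S - 3) G T 0) = g * chartP.gd.ev (pt3 (S - 3) G T 0) := by
    rw [hd]; simp [chartP, Ex.ev, pt3]
    rw [eG, gA]; field_simp; ring
  have he := eta1_ev hs hn
  simp only [chartP] at hs hn he hd
  refine ⟨S - 3, G, T, by linarith, hG, hT, ?_, ?_, pt_eq ?_ ?_ ?_⟩
  · simp only [chartP, hd]; positivity
  · simp only [chartP, uCut, Ex.ev, hd, hs, he]
    simp [one1, Ex.ev, pt3]; positivity
  · simp only [chartP, hs]
  · simp only [chartP, hn, hd]; field_simp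
  · rw [eT, uC]
    simp only [chartP, uCut, Ex.ev, hd, hs, hn, he]
    simp [one1, Ex.ev, pt3]
    generalize e1N S g = n₁, e1D S g = d₁ at *
    rw [eG, gA]
    field_simp
    ring

/-- Charts on `g ≥ gA`. -/
theorem eps_param (hS : 3 < S) (hg : gA S ≤ g) (hg' : g < 1 / 2) :
    ∃ G : ℝ, 0 ≤ G ∧ g = ((S + 1) * (1 + G) - 1) / (2 * ((S + 1) * (1 + G))) := by
  have hS1 : 0 < S + 1 := by linarith
  have hε : 0 < 1 - 2 * g := by linarith
  have h : (S + 1) * (1 - 2 * g) ≤ 1 := by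
    rw [gA, div_le_iff₀ (by linarith)] at hg; linarith
  have hG : 0 ≤ 1 / ((S + 1) * (1 - 2 * g)) - 1 := by
    rw [sub_nonneg, le_div_iff₀ (by positivity)]; linarith
  refine ⟨_, hG, ?_⟩
  rw [show 1 + (1 / ((S + 1) * (1 - 2 * g)) - 1) = 1 / ((S + 1) * (1 - 2 * g)) by ring,
    show (S + 1) * (1 / ((S + 1) * (1 - 2 * g))) = 1 / (1 - 2 * g) by field_simp,
    eq_div_iff (by positivity)]
  have e : 1 / (1 - 2 * g) * (1 - 2 * g) = 1 := by field_simp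
  linear_combination -e

theorem at_Q (hS : 3 < S) (hg : gA S ≤ g) (hg' : g < 1 / 2)
    (hU : 2 * g - S * (1 - 2 * g) < U) (hU' : U < uC S g) : chartQ.At S g U := by
  have hε : 0 < 1 - 2 * g := by linarith
  have hD := e1D_pos hS hg'
  obtain ⟨G, hG, eG⟩ := eps_param hS hg hg'
  have h1 : e1N S g / e1D S g ≤ (1 - U) / (1 - 2 * g) := by
    rw [le_div_iff₀ hε]; unfold uC at hU'; linarith
  have h2 : (1 - U) / (1 - 2 * g) < S + 1 := by
    rw [div_lt_iff₀ hε]; linarith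
  obtain ⟨T, hT, eT⟩ := exists_inc h1 h2
  have hS1 : 0 < S + 1 := by linarith
  have hed : 0 < (S + 1) * (1 + G) := by positivity
  have hs : chartQ.s.ev (pt3 (S - 3) G T 0) = S := by simp [chartQ, Ex.ev, pt3]
  have hd : chartQ.gd.ev (pt3 (S - 3) G T 0) = 2 * ((S + 1) * (1 + G)) := by
    simp [chartQ, one1, Ex.ev, pt3]
  have hn : chartQ.gn.ev (pt3 (S - 3) G T 0) = g * chartQ.gd.ev (pt3 (S - 3) G T 0) := by
    rw [hd]; simp [chartQ, one1, Ex.ev, pt3]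
    rw [eG]; field_simp
  have he := eta1_ev hs hn
  simp only [chartQ] at hs hn he hd
  refine ⟨S - 3, G, T, by linarith, hG, hT, ?_, ?_, pt_eq ?_ ?_ ?_⟩
  · simp only [chartQ, hd]; positivity
  · simp only [chartQ, Ex.ev, hs, hd, he]
    simp [one1, Ex.ev, pt3]; positivity
  · simp only [chartQ, hs]
  · simp only [chartQ, hn]
    exact mul_div_assoc _ _ _ |>.trans (by rw [div_self (by rw [hd]; positivity), mul_one])
  · have e : U = 1 - (1 - 2 * g) * ((1 - U) / (1 - 2 * g)) := by field_simp; ring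
    rw [e, eT]
    simp only [chartQ, Ex.ev, hs, hd, he]
    simp [one1, Ex.ev, pt3]
    generalize e1N S g = n₁, e1D S g = d₁ at *
    rw [eG]
    field_simp
    ring

theorem at_A (hS : 3 < S) (hg : 0 < g) (hg' : g < gA S) (hU : 0 < U) (hU' : U < uT S g) :
    ∃ σ G T : ℝ, 0 ≤ σ ∧ 0 < G ∧ 0 < T ∧ 0 < chartA.gd.ev (pt3 σ G T 0) ∧
      0 < chartA.ud.ev (pt3 σ G T 0) ∧ chartA.pt (pt3 σ G T 0) = pt3 S g U 0 := by
  obtain ⟨G, hG, eG⟩ := exists_inc hg.le hg'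
  obtain ⟨T, hT, eT⟩ := exists_inc hU.le hU'
  have hS1 : 0 < S + 1 := by linarith
  have hS4 : 0 < S + 4 := by linarith
  refine ⟨S - 3, G, T, by linarith, hG.lt_of_ne ?_, hT.lt_of_ne ?_, ?_, ?_, pt_eq ?_ ?_ ?_⟩
  · rintro rfl; simp at eG; linarith
  · rintro rfl; simp at eT; linarith
  · simp [chartA, Ex.ev, pt3]; positivity
  · simp [chartA, Ex.ev, pt3]; positivity
  · simp [chartA, Ex.ev, pt3]
  · simp [chartA, Ex.ev, pt3]
    rw [eG, gA]; field_simp; ring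
  · simp [chartA, Ex.ev, pt3]
    rw [eT, uT, eG, gA]; field_simp; ring

theorem at_B (hS : 3 < S) (hg : gA S ≤ g) (hg' : g < 1 / 2)
    (hU : 2 * g - S * (1 - 2 * g) < U) (hU' : U < uT S g) : chartB.At S g U := by
  have hε : 0 < 1 - 2 * g := by linarith
  have hS4 : 0 < S + 4 := by linarith
  have hS1 : 0 < S + 1 := by linarith
  obtain ⟨G, hG, eG⟩ := eps_param hS hg hg'
  have h1 : S / (S + 4) < (1 - U) / (1 - 2 * g) := by
    rw [lt_div_iff₀ hε, div_mul_eq_mul_div, div_lt_iff₀ hS4]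
    rw [uT, lt_div_iff₀ hS4] at hU'
    linarith
  have h2 : (1 - U) / (1 - 2 * g) ≤ S + 1 := by
    rw [div_le_iff₀ hε]; linarith
  obtain ⟨T, hT, eT⟩ := exists_dec h1 h2
  refine ⟨S - 3, G, T, by linarith, hG, hT, ?_, ?_, pt_eq ?_ ?_ ?_⟩
  · simp [chartB, Ex.ev, pt3]; positivity
  · simp [chartB, Ex.ev, pt3]; positivity
  · simp [chartB, Ex.ev, pt3]
  · simp [chartB, Ex.ev, pt3]
    rw [eG]
  · have e : U = 1 - (1 - 2 * g) * ((1 - U) / (1 - 2 * g)) := by field_simp; ring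
    rw [e, eT]
    simp [chartB, Ex.ev, pt3]
    rw [eG]
    field_simp
    ring

end

end Vale.Agent.P100.Ineq.Tri
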