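import Vale.Agent.P100.Ineq.Tri.Poly

/-!
# Kernel checks: chart A, layers 3 to 6
-/

namespace Vale.Agent.P100.Ineq.Tri

open Kron

theorem checkA3 : ((List.range 6).all fun j =>
    check 3 (hom chartA (coef 3 j)).1) = true := by decide +kernel

theorem checkA4 : ((List.range 5).all fun j =>
    check 3 (hom chartA (coef 4 j)).1) = true := by decide +kernel

theorem checkA5 : ((List.range 4).all fun j =>
    check 3 (hom chartA (coef 5 j)).1) = true := by decide +kernel

theorem checkA6 : ((List.range 3).all fun j =>
    check 3 (hom chartA (coef 6 j)).1) = true := by decide +kernel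

end Vale.Agent.P100.Ineq.Tri
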