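import Vale.Agent.P100.Ineq.Tri.CheckA0
import Vale.Agent.P100.Ineq.Tri.CheckA1
import Vale.Agent.P100.Ineq.Tri.CheckA2
import Vale.Agent.P100.Ineq.Tri.CheckA3

/-!
# Kernel checks: all layers of chart A
-/

namespace Vale.Agent.P100.Ineq.Tri

open Kron

theorem checkA {i j : ℕ} (hi : i < 7) (hj : j < 9 - i) :
    check 3 (hom chartA (coef i j)).1 = true := by
  have h : ∀ i < 7, ((List.range (9 - i)).all fun j =>
      check 3 (hom chartA (coef i j)).1) = true := by
    intro i hi
    interval_cases i
    · exact checkA0
    · exact checkA1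
    · exact checkA2
    · exact checkA3
    · exact checkA4
    · exact checkA5
    · exact checkA6
  exact List.all_eq_true.1 (h i hi) j (List.mem_range.2 hj)

end Vale.Agent.P100.Ineq.Tri
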