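import Vale.Agent.P100.Ineq.Tri.CheckB0
import Vale.Agent.P100.Ineq.Tri.CheckB1
import Vale.Agent.P100.Ineq.Tri.CheckB2
import Vale.Agent.P100.Ineq.Tri.CheckB3

/-!
# Kernel checks: all layers of chart B
-/

namespace Vale.Agent.P100.Ineq.Tri

open Kron

theorem checkB {i j : ℕ} (hi : i < 7) (hj : j < 9 - i) :
    check 3 (hom chartB (coef i j)).1 = true := by
  have h : ∀ i < 7, ((List.range (9 - i)).all fun j =>
      check 3 (hom chartB (coef i j)).1) = true := by
    intro i hi
    interval_cases i
    · exact checkB0
    · exact checkB1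
    · exact checkB2
    · exact checkB3
    · exact checkB4
    · exact checkB5
    · exact checkB6
  exact List.all_eq_true.1 (h i hi) j (List.mem_range.2 hj)

end Vale.Agent.P100.Ineq.Tri
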