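import Vale.Agent.P100.Ineq.Tri.Poly

/-!
# Kernel checks: chart B, layer 0
-/

namespace Vale.Agent.P100.Ineq.Tri

open Kron

theorem checkB0 : ((List.range 9).all fun j =>
    check 3 (hom chartB (coef 0 j)).1) = true := by decide +kernel

end Vale.Agent.P100.Ineq.Tri
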