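import Vale.Agent.P100.Ineq.Tri.CheckCutB
import Vale.Agent.P100.Ineq.Tri.CheckCutH

/-!
# Kernel checks: the cut charts
-/

namespace Vale.Agent.P100.Ineq.Tri

open Kron Kron.Ex

theorem check_cube0 : checkList chartCube0 three = true := by decide +kernel
theorem check_P : checkList chartP three = true := by decide +kernel
theorem check_Q : checkList chartQ three = true := by decide +kernel

theorem check_strictA : check 3 (sub (hom chartA (coef 5 0)).1 (mul (var 1) (var 2))) = true := by
  decide +kernel
theorem check_strictB : check 3 (sub (hom chartB (coef 5 0)).1 (num 1)) = true := by decide +kernel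

/-- The two scalings of the top coefficients agree. -/
def topDiff (i j : ℕ) : Ex := sub (coef i j) (mul (pow xfP (i - 5)) (top i j))

theorem check_top : ([(8, 0), (7, 1), (7, 0), (6, 2), (6, 1), (6, 0)].all fun p : ℕ × ℕ =>
    check 3 (topDiff p.1 p.2) && check 3 (sub (num 0) (topDiff p.1 p.2))) = true := by decide +kernel

/-- The coefficients use the first three variables only. -/
theorem coef_vars : ((List.range 9).all fun i => (List.range (9 - i)).all fun j =>
    (coef i j).varsLt 3) = true := by decide +kernel

end Vale.Agent.P100.Ineq.Tri
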