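import Vale.Agent.P100.Ineq.Tri.Cut

/-!
# Kernel checks: the charts of the upper barrier
-/

namespace Vale.Agent.P100.Ineq.Tri

open Kron Kron.Ex

theorem check_B1 : checkList chartB1 sixB = true := by decide +kernel

theorem check_B2 : checkList chartB2 sixB = true := by decide +kernel

end Vale.Agent.P100.Ineq.Tri
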