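import Vale.Agent.P100.Ineq.Tri.Poly

/-!
# The form against `cE`
-/

namespace Vale.Agent.P100.Ineq.Tri

open Kron

noncomputable section

/-- The variables of the coefficients. -/
def pt3 (S g U t : ℝ) (i : ℕ) : ℝ :=
  if i = 0 then S else if i = 1 then g else if i = 2 then U else if i = 3 then t else 0

variable (S g U t : ℝ)

theorem ev_xS : xS.ev (pt3 S g U t) = S := by simp [xS, Ex.ev, pt3]
theorem ev_xg : xg.ev (pt3 S g U t) = g := by simp [xg, Ex.ev, pt3]
theorem ev_xU : xU.ev (pt3 S g U t) = U := by simp [xU, Ex.ev, pt3]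
theorem ev_xt : xt.ev (pt3 S g U t) = t := by simp [xt, Ex.ev, pt3]
theorem ev_xf : xf.ev (pt3 S g U t) = 1 - g := by simp [xf, Ex.ev, ev_xg]
theorem ev_xeps : xeps.ev (pt3 S g U t) = 1 - 2 * g := by simp [xeps, Ex.ev, ev_xg]
theorem ev_xN : xN.ev (pt3 S g U t) = S + 2 := by simp [xN, Ex.ev, ev_xS]
theorem ev_xA : xA.ev (pt3 S g U t) = tA S g U := by simp [xA, Ex.ev, ev_xS, ev_xg, ev_xU, tA]
theorem ev_xu : xu.ev (pt3 S g U t) = tu g U := by simp [xu, Ex.ev, ev_xf, ev_xU, tu]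
theorem ev_xQ : xQ.ev (pt3 S g U t) = tQ S g U := by simp [xQ, Ex.ev, ev_xf, ev_xS, ev_xU, tQ]
theorem ev_xP : xP.ev (pt3 S g U t) = tP S g U := by simp [xP, Ex.ev, ev_xS, ev_xg, ev_xU, tP]
theorem ev_xD : xD.ev (pt3 S g U t) = tD S g U := by simp [xD, Ex.ev, ev_xf, ev_xS, ev_xU, tD]
theorem ev_xE0 : xE0.ev (pt3 S g U t) = S * (1 - 2 * g) - 2 * g + U := by
  simp [xE0, Ex.ev, ev_xeps, ev_xS, ev_xg, ev_xU]
theorem ev_xUN : xUN.ev (pt3 S g U t) = tUN S g U := by
  simp [xUN, Ex.ev, ev_xE0, ev_xU, tUN]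
theorem ev_xfP : xfP.ev (pt3 S g U t) = (1 - g) * tP S g U := by
  simp [xfP, Ex.ev, ev_xf, ev_xP]

/-- The form with values for the hats: `Ne`, `Nv`, `Nw`, the rest. -/
def hatForm (S g X0 V NW NA Qr Den Hd Ne' L : ℝ) : ℝ :=
  X0 * V * NW *
      (4 * (S * (S + 2)) * (NA * Hd * (Ne' * Den))
        + (1 - 2 * g) * (4 * (g * S) - (1 - 2 * g) ^ 2) * (NA * NA * (Den * Den))
        + 2 * ((1 - 2 * g) * (S + (1 - 2 * g))) * (NA * Qr * Den)
        - (1 - 2 * g) * (S + 1) ^ 2 * (Qr * Qr)) - L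

/-- The series at `a`. -/
def formR (a p q : ℝ) : ℝ :=
  let E0 := S * (1 - 2 * g) - 2 * g + U
  let X := p * (t + (S + U)) + a
  let X0 := p * (t + S) + a
  let Sn := p * tUN S g U
  let Den := tA S g U * (tu g U * t + tD S g U) + a * q
  let Y0 := U * (t + tQ S g U)
  let NW := (S + 2) * (1 - g) * X - Sn
  let NU := tu g U * X - Sn
  let NA := (S + 2 + E0) * X - Sn
  let Hd := g * Den + E0 * Y0
  let V := Sn * Den + (1 - 2 * g) * (S + 2) * (X * Hd)
  let Qr := NU * (Den + 2 * Hd)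
  let L := S * (p * U * (((1 - g) * S + U) * (X * Den) + E0 * (NU * Y0)) + 2 * (NW * Hd * X))
    + 2 * (NW * (2 * g * (X0 * Den) + Y0 * (E0 * X0 - NU)) - p * U * (NU * Den))
  hatForm S g X0 V NW NA Qr Den Hd ((1 - g) * E0 * X0 + Sn) ((1 - 2 * g) * E0 * (NA * Den * (L * L)))

theorem evS_serP (a : ℝ) (p q : Ex) : evS (pt3 S g U t) a (serP p q)
    = formR S g U t a (p.ev (pt3 S g U t)) (q.ev (pt3 S g U t)) := by
  simp only [serP, evS_sub, evS_add, evS_mul, evS_scale, evS, Ex.ev, ev_xS, ev_xg, ev_xU, ev_xt,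
    ev_xf, ev_xeps, ev_xN, ev_xA, ev_xu, ev_xQ, ev_xD, ev_xE0, ev_xUN, formR, hatForm]
  simp only [Int.cast_one, Int.cast_ofNat, mul_zero, add_zero, mul_one]

theorem assemble {S g f e ne nv nw na nu h r C C' y E0 : ℝ} (hE : E0 = ne + r) (hf : f = 1 - g)
    (hg : g = 1 - f) (he : e = 1 - 2 * g) (hC : C' = C) :
    ne * nv * nw * (4 * S * (S + 2) * na * h * (f * ne + r)
        + e * na ^ 2 * (4 * (1 - f) * S - e ^ 2)
        + 2 * e * na * (nu * (1 + 2 * h)) * (S + e) - e * (S + 1) ^ 2 * (nu * (1 + 2 * h)) ^ 2)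
      - e * na * (S * (r * (C' + nu * y) + 2 * nw * h * (ne + r))
          + 2 * (nw * (2 * (1 - f) * ne + y * (ne - nu)) - r * nu)) ^ 2
      = hatForm S g ne nv nw na (nu * (1 + 2 * h)) 1 h ((1 - g) * ne + r)
          ((1 - 2 * g) * (na * 1 * (S * (r * (C + nu * y) + 2 * nw * h * E0)
            + 2 * (nw * (2 * g * ne + y * (ne - nu)) - r * nu)) ^ 2)) := by
  rw [hE, ← hg, he, hC, hf, hatForm]
  generalize 1 - 2 * g = c
  generalize 1 - g = d
  generalize S * (r * (C + nu * y) + 2 * nw * h * (ne + r))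
    + 2 * (nw * (2 * g * ne + y * (ne - nu)) - r * nu) = L
  ring

/-- `(S + 2) ^ 5 cE` in the new variables. -/
theorem cE_eq_hat {f x z w : ℝ} (R : ℝ) (hU : U = (S + 2) * z - f * S)
    (hR : R = (S + 2) * (f - w)) (hg : g = 1 - f) :
    (S + 2) ^ 5 * cE S f x z w =
      hatForm S g (S * (1 - 2 * g) - 2 * g + U - R) (R + (1 - 2 * g) * (S + 2) * (g + (1 - x)))
        ((S + 2) * (1 - g) - R) (S + 2 + (S * (1 - 2 * g) - 2 * g + U) - R)
        ((tu g U - R) * (1 + 2 * (g + (1 - x)))) 1 (g + (1 - x))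
        ((1 - g) * (S * (1 - 2 * g) - 2 * g + U - R) + R)
        ((1 - 2 * g) * ((S + 2 + (S * (1 - 2 * g) - 2 * g + U) - R) * 1 * (S * (R * ((1 - g) * S + U + (tu g U - R) * (1 - x))
            + 2 * ((S + 2) * (1 - g) - R) * (g + (1 - x)) * (S * (1 - 2 * g) - 2 * g + U))
          + 2 * (((S + 2) * (1 - g) - R) * (2 * g * (S * (1 - 2 * g) - 2 * g + U - R)
              + (1 - x) * (S * (1 - 2 * g) - 2 * g + U - R - (tu g U - R))) - R * (tu g U - R))) ^ 2)) := by
  subst hU hR hg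
  have he : (S + 2) * (w + z - 1) = S * (1 - 2 * (1 - f)) - 2 * (1 - f) + ((S + 2) * z - f * S)
      - (S + 2) * (f - w) := by ring
  have hv : (S + 2) * cV f x w
      = (S + 2) * (f - w) + (1 - 2 * (1 - f)) * (S + 2) * (1 - f + (1 - x)) := by
    simp only [cV, cH, cEps]; ring
  have hw : (S + 2) * w = (S + 2) * (1 - (1 - f)) - (S + 2) * (f - w) := by ring
  have ha : (S + 2) * (w + z) = S + 2 + (S * (1 - 2 * (1 - f)) - 2 * (1 - f)
      + ((S + 2) * z - f * S)) - (S + 2) * (f - w) := by ring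
  have hu : (S + 2) * (w - z)
      = tu (1 - f) ((S + 2) * z - f * S) - (S + 2) * (f - w) := by simp only [tu]; ring
  have hh : cH f x = 1 - f + (1 - x) := rfl
  have hε : cEps f = 1 - 2 * (1 - f) := by simp only [cEps]; ring
  have hf : f = 1 - (1 - f) := by ring
  have hP : (S + 2) ^ 2 * cPP S f x z w
      = 4 * S * (S + 2) * ((S + 2) * (w + z)) * cH f x
          * (f * ((S + 2) * (w + z - 1)) + (S + 2) * (f - w))
        + cEps f * ((S + 2) * (w + z)) ^ 2 * (4 * (1 - f) * S - cEps f ^ 2)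
        + 2 * cEps f * ((S + 2) * (w + z)) * ((S + 2) * (w - z) * (1 + 2 * cH f x)) * (S + cEps f)
        - cEps f * (S + 1) ^ 2 * ((S + 2) * (w - z) * (1 + 2 * cH f x)) ^ 2 := by
    simp only [cPP, cQ]; ring
  have hL : (S + 2) ^ 2 * cLam S f x z w
      = S * ((S + 2) * (f - w) * (f * S + ((S + 2) * z - f * S) + (S + 2) * (w - z) * (1 - x))
          + 2 * ((S + 2) * w) * cH f x * ((S + 2) * (w + z - 1) + (S + 2) * (f - w)))
        + 2 * ((S + 2) * w * (2 * (1 - f) * ((S + 2) * (w + z - 1))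
            + (1 - x) * ((S + 2) * (w + z - 1) - (S + 2) * (w - z)))
          - (S + 2) * (f - w) * ((S + 2) * (w - z))) := by
    simp only [cLam]; ring
  have key : (S + 2) ^ 5 * cE S f x z w
      = (S + 2) * (w + z - 1) * ((S + 2) * cV f x w) * ((S + 2) * w) * ((S + 2) ^ 2 * cPP S f x z w)
        - cEps f * ((S + 2) * (w + z)) * ((S + 2) ^ 2 * cLam S f x z w) ^ 2 := by
    simp only [cE]; ring
  rw [key, hP, hL, he, hv, hw, ha, hu, hh]
  exact assemble (by ring) hf (by ring) hε (by rw [sub_sub_cancel])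

theorem hat_scale {S g p k x E0 X0 V NW NA Qr Den Hd F L x0 v nw na qq hd ff l : ℝ}
    (h0 : p * (E0 * X0) = k * x * x0) (hV : p * V = k * k * x * v) (hW : p * NW = k * x * nw)
    (hA : p * NA = k * x * na) (hQ : p * Qr = k * k * x * qq) (hD : Den = k) (hH : Hd = k * hd)
    (hF : p * F = k * x * ff) (hL : E0 * (p * p) * L = k ^ 3 * x ^ 2 * l) :
    E0 * p ^ 5 * hatForm S g X0 V NW NA Qr Den Hd F ((1 - 2 * g) * E0 * (NA * Den * (L * L)))
      = k ^ 8 * x ^ 5 * hatForm S g x0 v nw na qq 1 hd ff ((1 - 2 * g) * (na * 1 * l ^ 2)) := by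
  unfold hatForm
  generalize 4 * (S * (S + 2)) = c1
  generalize (1 - 2 * g) * (4 * (g * S) - (1 - 2 * g) ^ 2) = c2
  generalize 2 * ((1 - 2 * g) * (S + (1 - 2 * g))) = c3
  generalize (1 - 2 * g) * (S + 1) ^ 2 = c4
  generalize 1 - 2 * g = c5
  calc _ = (p * (E0 * X0)) * (p * V) * (p * NW) * (c1 * ((p * NA) * Hd * ((p * F) * Den))
        + c2 * ((p * NA) * (p * NA) * (Den * Den)) + c3 * ((p * NA) * (p * Qr) * Den)
        - c4 * ((p * Qr) * (p * Qr))) - c5 * (E0 * (p * p) * L) ^ 2 * ((p * NA) * Den) := by ring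
    _ = _ := by rw [h0, hV, hW, hA, hQ, hD, hH, hF, hL]; ring

theorem lam_scale {S g p k x U E0 C X X0 Den Y0 NW NU H R y nw nu x0 : ℝ}
    (hU : p * (U * E0) = k * x * R) (hX : p * X = k * x) (hD : Den = k)
    (hY : E0 * Y0 = k * y) (hW : p * NW = k * x * nw) (hu : p * NU = k * x * nu)
    (hH : H = k * (g + y)) (h0 : p * (E0 * X0) = k * x * x0) :
    E0 * (p * p) * (S * (U * (C * (X * Den) + E0 * (NU * Y0)) + 2 * (NW * H * X))
        + 2 * (NW * (2 * g * (X0 * Den) + Y0 * (E0 * X0 - NU)) - U * (NU * Den)))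
      = k ^ 3 * x ^ 2 * (S * (R * (C + nu * y) + 2 * nw * (g + y) * E0)
        + 2 * (nw * (2 * g * x0 + y * (x0 - nu)) - R * nu)) := by
  calc _ = S * ((p * (U * E0)) * (C * (p * X) * Den + (p * NU) * (E0 * Y0))
        + 2 * ((p * NW) * H * (p * X) * E0))
      + 2 * ((p * NW) * (2 * g * (p * (E0 * X0)) * Den
          + (E0 * Y0) * (p * (E0 * X0) - p * NU)) - (p * (U * E0)) * (p * NU) * Den) := by ring
    _ = _ := by rw [hU, hX, hD, hY, hW, hu, hH, h0]; ring

/-- Homogeneity: the form in the weights is a positive multiple of `cE`. -/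
theorem form_eq {f x z w k p a : ℝ} (R : ℝ) (hU : U = (S + 2) * z - f * S)
    (hR : R = (S + 2) * (f - w)) (hg : g = 1 - f)
    (hX : p * (t + (S + U) + a) = k * x)
    (hD : tA S g U * (tu g U * t + tD S g U) + a * p = k)
    (hY : (S * (1 - 2 * g) - 2 * g + U) * (U * (t + tQ S g U)) = k * (1 - x))
    (hS : p * tUN S g U = k * x * R) :
    (S * (1 - 2 * g) - 2 * g + U) * p ^ 5 * formR S g U t a 1 p
      = k ^ 8 * x ^ 5 * ((S + 2) ^ 5 * cE S f x z w) := by
  rw [cE_eq_hat S g U R hU hR hg]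
  simp only [formR, one_mul]
  set E0 := S * (1 - 2 * g) - 2 * g + U with hE0
  set X := t + (S + U) + a with hXd
  set Den := tA S g U * (tu g U * t + tD S g U) + a * p with hDd
  set Y0 := U * (t + tQ S g U)
  set UN := tUN S g U with hUN
  set X0 := t + S + a with hX0d
  have e0 : p * (E0 * X0) = k * x * (E0 - R) := by
    have : UN = U * E0 := by simp only [hUN, tUN, hE0]
    rw [hX0d]; linear_combination E0 * hX - hS + p * this
  have eH : g * Den + E0 * Y0 = k * (g + (1 - x)) := by linear_combination g * hD + hY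
  have eW : p * ((S + 2) * (1 - g) * X - UN) = k * x * ((S + 2) * (1 - g) - R) := by
    linear_combination (S + 2) * (1 - g) * hX - hS
  have eu : p * (tu g U * X - UN) = k * x * (tu g U - R) := by
    linear_combination tu g U * hX - hS
  have eA : p * ((S + 2 + E0) * X - UN) = k * x * (S + 2 + E0 - R) := by
    linear_combination (S + 2 + E0) * hX - hS
  have eV : p * (UN * Den + (1 - 2 * g) * (S + 2) * (X * (g * Den + E0 * Y0)))
      = k * k * x * (R + (1 - 2 * g) * (S + 2) * (g + (1 - x))) := by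
    rw [eH]
    linear_combination Den * hS + k * x * R * hD + (1 - 2 * g) * (S + 2) * (k * (g + (1 - x))) * hX
  have eF : p * ((1 - g) * E0 * X0 + UN) = k * x * ((1 - g) * (E0 - R) + R) := by
    linear_combination (1 - g) * e0 + hS
  have eQ : p * ((tu g U * X - UN) * (Den + 2 * (g * Den + E0 * Y0)))
      = k * k * x * ((tu g U - R) * (1 + 2 * (g + (1 - x)))) := by
    rw [eH]
    linear_combination (Den + 2 * (k * (g + (1 - x)))) * eu + k * x * (tu g U - R) * hD
  have hUE : p * (U * E0) = k * x * R := by rw [← hS, hUN]; simp only [tUN, hE0]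
  exact hat_scale e0 eV eW eA eQ hD eH eF
    (lam_scale (C := (1 - g) * S + U) hUE hX hD hY eW eu eH e0)

end

end Vale.Agent.P100.Ineq.Tri
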