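import Vale.Agent.P100.Orbit.Region

/-!
# P100: the forward region as a weighted triangle

Variables `g = 1 - f`, `U = (S + 2) z - f S`, `y = 1 - x`, `s = x (S + 2) (f - w)`. The
nonnegative weights are `a`, `b`, `c`, with total `a + A u b + A D c = UN * fP`.
-/

namespace Vale.Agent.P100.Ineq.Tri

open Vale.Agent.P100.Orbit

noncomputable section

/-- `(S + 2) (1 - z)`. -/
def tA (S g U : ℝ) : ℝ := g * S + 2 - U

/-- `(S + 2) (f - z)`. -/
def tu (g U : ℝ) : ℝ := 2 * (1 - g) - U

/-- `2 (S + 2) z - f S - 2`. -/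
def tQ (S g U : ℝ) : ℝ := (1 - g) * S + 2 * U - 2

/-- `(S + 2) rP`. -/
def tP (S g U : ℝ) : ℝ := 2 * (2 + g * S) - (S + 4) * U

/-- `A u - f P`. -/
def tUN (S g U : ℝ) : ℝ := U * (S * (1 - 2 * g) - 2 * g + U)

/-- `f P + u Q`. -/
def tD (S g U : ℝ) : ℝ := 2 * ((1 - g) * S + U) * (1 - U)

/-- First weight (zero on `phi = 1`). -/
def wa (S g U y s : ℝ) : ℝ := (1 - g) * tP S g U * (tUN S g U - tA S g U * (tu g U * y + s))

/-- Second weight (zero when `w` is stationary). -/
def wb (S g U y s : ℝ) : ℝ := (1 - g) * tP S g U * y - tQ S g U * s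

/-- The total weight. -/
def wden (S g U y s : ℝ) : ℝ :=
  wa S g U y s + tA S g U * tu g U * wb S g U y s + tA S g U * tD S g U * s

theorem A_mul_u (S g U : ℝ) : tA S g U * tu g U = tUN S g U + (1 - g) * tP S g U := by
  simp only [tA, tu, tUN, tP]; ring

theorem D_eq (S g U : ℝ) : tD S g U = (1 - g) * tP S g U + tu g U * tQ S g U := by
  simp only [tD, tP, tu, tQ]; ring

theorem den_eq (S g U y s : ℝ) : wden S g U y s = tUN S g U * ((1 - g) * tP S g U) := by
  simp only [wden, wa, wb, tA, tu, tQ, tP, tUN, tD]; ring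

theorem x_mul_den (S g U y s : ℝ) : (1 - y) * wden S g U y s =
    wa S g U y s + (1 - g) * tP S g U * wb S g U y s + (1 - g) * tP S g U * (S + U) * s := by
  rw [den_eq]; simp only [wa, wb, tA, tu, tQ, tP, tUN]; ring

theorem y_mul_den (S g U y s : ℝ) :
    y * wden S g U y s = tUN S g U * (wb S g U y s + tQ S g U * s) := by
  rw [den_eq]; simp only [wb]; ring

theorem s_mul_den (S g U y s : ℝ) :
    s * wden S g U y s = tUN S g U * ((1 - g) * tP S g U) * s := by
  rw [den_eq]; ring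

/-- The facts on the forward region. -/
structure Geom (S g U y s : ℝ) : Prop where
  S_gt : 3 < S
  g_pos : 0 < g
  g_lt_half : g < 1 / 2
  U_pos : 0 < U
  U_lt_one : U < 1
  U_P : (S + 4) * U < 2 * (2 + g * S)
  U_gt : 2 * g - S * (1 - 2 * g) < U
  A_pos : 0 < tA S g U
  u_pos : 0 < tu g U
  P_pos : 0 < tP S g U
  UN_pos : 0 < tUN S g U
  D_pos : 0 < tD S g U
  y_pos : 0 < y
  y_lt_one : y < 1
  s_pos : 0 < s
  a_pos : 0 < wa S g U y s
  b_nonneg : 0 ≤ wb S g U y s
  den_pos : 0 < wden S g U y s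
  half : (tUN S g U - (1 - g) * tP S g U) * wa S g U y s
    ≤ (1 - g) * tP S g U * (tA S g U * tu g U * wb S g U y s + tA S g U * tD S g U * s)

theorem geom_of_inRegion {S f x z w : ℝ} (hS : 3 < S) (R : InRegion S f x z w) :
    Geom S (1 - f) ((S + 2) * z - f * S) (1 - x) (x * ((S + 2) * (f - w))) := by
  obtain ⟨hS0, hf, hf1, hx, hx1, hgz, haz, hP, hzw, -, hwf, hlo, hhi, hmono⟩ := R
  have hN : 0 < S + 2 := by linarith
  have hf0 : 0 < f := by linarith
  set U := (S + 2) * z - f * S with hU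
  set s := x * ((S + 2) * (f - w)) with hs
  have U_pos : 0 < U := by
    rw [div_lt_iff₀ hN] at haz
    linarith
  have U_gt : 2 * (1 - f) - S * (1 - 2 * (1 - f)) < U := by
    have := mul_lt_mul_of_pos_left hgz hN
    linarith
  have eP : tP S (1 - f) U = (S + 2) * rP S f z := by
    simp only [tP, rP, hU]; ring
  have P_pos : 0 < tP S (1 - f) U := eP ▸ mul_pos hN hP
  have U_P : (S + 4) * U < 2 * (2 + (1 - f) * S) := by
    simp only [tP] at P_pos; linarith
  have U_lt_one : U < 1 := by nlinarith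
  have eA : tA S (1 - f) U = (S + 2) * (1 - z) := by simp only [tA, hU]; ring
  have eu : tu (1 - f) U = (S + 2) * (f - z) := by simp only [tu, hU]; ring
  have A_pos : 0 < tA S (1 - f) U := eA ▸ mul_pos hN (by linarith)
  have u_pos : 0 < tu (1 - f) U := eu ▸ mul_pos hN (by linarith)
  have UN_pos : 0 < tUN S (1 - f) U := mul_pos U_pos (by linarith)
  have D_pos : 0 < tD S (1 - f) U := by
    have : 0 < (1 - (1 - f)) * S := by rw [sub_sub_cancel]; positivity
    exact mul_pos (mul_pos two_pos (by linarith)) (by linarith)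
  have key : tA S (1 - f) U * (tu (1 - f) U * (1 - x) + s)
      = tUN S (1 - f) U + f * tP S (1 - f) U - (S + 2) * (f * (x * rPm S f z w)) := by
    have e : f * rPm S f z w = (S + 2) * ((1 - z) * (w - z)) := by
      simp only [rPm]; field_simp
    rw [mul_left_comm f x, e, show tUN S (1 - f) U + f * tP S (1 - f) U
      = tA S (1 - f) U * tu (1 - f) U by rw [A_mul_u, sub_sub_cancel], eA, eu, hs]
    ring
  have h1 : (S + 2) * (f * rP S f z) < (S + 2) * (f * (x * rPm S f z w)) :=
    mul_lt_mul_of_pos_left (mul_lt_mul_of_pos_left hlo hf0) hN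
  have h2 : (S + 2) * (f * (x * rPm S f z w)) < (S + 2) * (f * (2 * rP S f z)) :=
    mul_lt_mul_of_pos_left (mul_lt_mul_of_pos_left hhi hf0) hN
  have efP : f * tP S (1 - f) U = (S + 2) * (f * rP S f z) := by rw [eP]; ring
  have a_pos : 0 < wa S (1 - f) U (1 - x) s := by
    rw [wa, sub_sub_cancel]
    exact mul_pos (mul_pos hf0 P_pos) (by linarith)
  have b_nonneg : 0 ≤ wb S (1 - f) U (1 - x) s := by
    have := mul_nonneg (mul_pos hN hf0).le hmono
    refine this.trans_eq ?_
    rw [wb, sub_sub_cancel, mul_comm (1 - x), mul_sub]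
    simp only [tQ, tP, rP, hU, hs, sub_sub_cancel]
    field_simp
    ring
  refine ⟨hS, by linarith, by linarith, U_pos, U_lt_one, U_P, U_gt, A_pos, u_pos, P_pos,
    UN_pos, D_pos, by linarith, by linarith,
    mul_pos hx (mul_pos hN (by linarith)), a_pos, b_nonneg, ?_, ?_⟩
  · rw [den_eq, sub_sub_cancel]
    exact mul_pos UN_pos (mul_pos hf0 P_pos)
  · have h3 : tUN S (1 - f) U - tA S (1 - f) U * (tu (1 - f) U * (1 - x) + s)
        ≤ f * tP S (1 - f) U := by linarith
    have h4 : wa S (1 - f) U (1 - x) s ≤ f * tP S (1 - f) U * (f * tP S (1 - f) U) := by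
      rw [wa, sub_sub_cancel]
      exact mul_le_mul_of_nonneg_left h3 (mul_pos hf0 P_pos).le
    have h5 := mul_le_mul_of_nonneg_left h4 UN_pos.le
    have e := den_eq S (1 - f) U (1 - x) s
    rw [wden, sub_sub_cancel] at e
    rw [sub_sub_cancel]
    linear_combination h5 - f * tP S (1 - f) U * e

/-- The upper barrier as a linear bound on the first weight. -/
theorem Geom.barrier {S g U y s : ℝ} (G : Geom S g U y s) (h : U ^ 2 ≤ 6 * (y + g ^ 3)) :
    (U ^ 2 - 6 * g ^ 3) * wa S g U y s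
      ≤ 6 * tUN S g U * (wb S g U y s + tQ S g U * s) := by
  have hfP : 0 < (1 - g) * tP S g U := mul_pos (by linarith [G.g_lt_half]) G.P_pos
  have h1 : wa S g U y s ≤ (1 - g) * tP S g U * tUN S g U := by
    rw [wa]
    refine mul_le_mul_of_nonneg_left (sub_le_self _ ?_) hfP.le
    exact mul_nonneg G.A_pos.le (add_nonneg (mul_nonneg G.u_pos.le G.y_pos.le) G.s_pos.le)
  calc (U ^ 2 - 6 * g ^ 3) * wa S g U y s ≤ 6 * y * wa S g U y s :=
        mul_le_mul_of_nonneg_right (by linarith) G.a_pos.le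
    _ ≤ 6 * y * ((1 - g) * tP S g U * tUN S g U) :=
        mul_le_mul_of_nonneg_left h1 (by linarith [G.y_pos])
    _ = _ := by rw [wb]; ring

/-- The old coordinates from the new ones. -/
theorem coords {S f x z w : ℝ} (hS : 3 < S) (hx : 0 < x) :
    f = 1 - (1 - f) ∧ x = 1 - (1 - x) ∧ z = (((S + 2) * z - f * S) + f * S) / (S + 2) ∧
      w = f - x * ((S + 2) * (f - w)) / ((S + 2) * x) := by
  refine ⟨by ring, by ring, ?_, ?_⟩
  · field_simp; ring
  · field_simp; ring

end

end Vale.Agent.P100.Ineq.Tri
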