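import Vale.Agent.P100.Ineq.Tri.Charts
import Vale.Agent.P100.Ineq.Tri.CheckA
import Vale.Agent.P100.Ineq.Tri.CheckB
import Vale.Agent.P100.Ineq.Tri.CheckCut

/-!
# `0 < cE` on the forward region
-/

namespace Vale.Agent.P100.Ineq.Tri

open Kron Finset

noncomputable section

variable {S g U : ℝ}

theorem ev_congr {n : ℕ} {v w : ℕ → ℝ} (h : ∀ i < n, v i = w i) :
    ∀ e : Ex, e.varsLt n = true → e.ev v = e.ev w
  | .num _, _ => rfl
  | .var i, hi => h i (Nat.le_of_ble_eq_true hi)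
  | .add a b, he => by
    simp only [Ex.varsLt, Bool.and_eq_true] at he
    simp only [Ex.ev, ev_congr h a he.1, ev_congr h b he.2]
  | .sub a b, he => by
    simp only [Ex.varsLt, Bool.and_eq_true] at he
    simp only [Ex.ev, ev_congr h a he.1, ev_congr h b he.2]
  | .mul a b, he => by
    simp only [Ex.varsLt, Bool.and_eq_true] at he
    simp only [Ex.ev, ev_congr h a he.1, ev_congr h b he.2]
  | .pow a _, he => by
    simp only [Ex.varsLt] at he
    simp only [Ex.ev, ev_congr h a he]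

theorem evS_sum (v : ℕ → ℝ) (a : ℝ) : ∀ l : List Ex,
    evS v a l = ∑ i ∈ range l.length, a ^ i * (l.getD i (.num 0)).ev v
  | [] => by simp [evS]
  | x :: l => by
    rw [List.length_cons, sum_range_succ', evS, evS_sum v a l, mul_sum, add_comm (∑ _ ∈ _, _)]
    simp [pow_succ, mul_assoc, mul_comm, mul_left_comm]

theorem serP_length : (serP (.num 1) xfP).length = 9 := by decide +kernel

theorem ser_length : ((List.range 9).all fun i =>
    Nat.beq (ser 3 (coefP i)).length (9 - i)) = true := by decide +kernel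

/-- The coefficient at `(S, g, U)`. -/
def Cv (S g U : ℝ) (i j : ℕ) : ℝ := (coef i j).ev (pt3 S g U 0)

/-- The unscaled coefficient at `(S, g, U)`. -/
def Tv (S g U : ℝ) (i j : ℕ) : ℝ := (top i j).ev (pt3 S g U 0)

theorem form_sum (S g U t a : ℝ) :
    formR S g U t a 1 ((1 - g) * tP S g U)
      = ∑ i ∈ range 9, a ^ i * ∑ j ∈ range (9 - i), t ^ j * Cv S g U i j := by
  have h := evS_serP S g U t a (.num 1) xfP
  rw [evS_sum, serP_length] at h
  have e : (Ex.num 1).ev (pt3 S g U t) = 1 := by simp [Ex.ev]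
  rw [e, ev_xfP] at h
  rw [← h]
  refine sum_congr rfl fun i hi => ?_
  congr 1
  have hl := List.all_eq_true.1 ser_length i (List.mem_range.2 (mem_range.1 hi))
  have h3 := evS_ser (pt3 S g U t) 3 (coefP i)
  rw [evS_sum, Nat.eq_of_beq_eq_true hl] at h3
  change (coefP i).ev _ = _
  rw [← h3]
  refine sum_congr rfl fun j hj => ?_
  have hv := List.all_eq_true.1 (List.all_eq_true.1 coef_vars i (List.mem_range.2 (mem_range.1 hi)))
    j (List.mem_range.2 (mem_range.1 hj))
  have ht : pt3 S g U t 3 = t := rfl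
  rw [ht, Cv]
  congr 1
  refine ev_congr (fun k hk => ?_) _ hv
  interval_cases k <;> rfl

theorem top_eq (hS : 0 ≤ S) (hg : 0 ≤ g) (hU : 0 ≤ U) {p : ℕ × ℕ}
    (hp : p ∈ [(8, 0), (7, 1), (7, 0), (6, 2), (6, 1), (6, 0)]) :
    Cv S g U p.1 p.2 = ((1 - g) * tP S g U) ^ (p.1 - 5) * Tv S g U p.1 p.2 := by
  have h := List.all_eq_true.1 check_top p hp
  simp only [Bool.and_eq_true] at h
  have h1 := nonneg_of_check h.1 (pt3_nonneg hS hg hU)
  have h2 := nonneg_of_check h.2 (pt3_nonneg hS hg hU)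
  simp only [topDiff, Ex.ev, ev_xfP] at h1 h2
  push_cast at h2
  simp only [Cv, Tv]
  linarith

/-- Where the two big charts apply. -/
structure Dom (S g U : ℝ) : Prop where
  S_gt : 3 < S
  g_pos : 0 < g
  g_lt : g < 1 / 2
  U_pos : 0 < U
  U_gt : 2 * g - S * (1 - 2 * g) < U
  U_lt : U < uT S g

theorem Dom.coef_nonneg (D : Dom S g U) {i j : ℕ} (hi : i < 7) (hj : j < 9 - i) :
    0 ≤ Cv S g U i j := by
  rcases lt_or_ge g (gA S) with hg | hg
  · obtain ⟨σ, G, T, hσ, hG, hT, hd, hu, hp⟩ := at_A D.S_gt D.g_pos hg D.U_pos D.U_lt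
    exact Sub.At.nonneg ⟨σ, G, T, hσ, hG.le, hT.le, hd, hu, hp⟩ (checkA hi hj)
  · exact (at_B D.S_gt hg D.g_lt D.U_gt D.U_lt).nonneg (checkB hi hj)

theorem Dom.strict (D : Dom S g U) : 0 < Cv S g U 5 0 := by
  rcases lt_or_ge g (gA S) with hg | hg
  · obtain ⟨σ, G, T, hσ, hG, hT, hd, hu, hp⟩ := at_A D.S_gt D.g_pos hg D.U_pos D.U_lt
    have h := nonneg_of_check check_strictA (pt3_nonneg hσ hG.le hT.le)
    simp only [Ex.ev, hom_ev chartA _ hd.ne' hu.ne', hp] at h
    have e : pt3 σ G T 0 1 = G := rfl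
    have e' : pt3 σ G T 0 2 = T := rfl
    rw [e, e'] at h
    have hGT : 0 < G * T := mul_pos hG hT
    exact (mul_pos_iff_of_pos_left (mul_pos (pow_pos hd _) (pow_pos hu _))).1
      (lt_of_lt_of_le hGT (sub_nonneg.1 h))
  · obtain ⟨σ, G, T, hσ, hG, hT, hd, hu, hp⟩ := at_B D.S_gt hg D.g_lt D.U_gt D.U_lt
    have h := nonneg_of_check check_strictB (pt3_nonneg hσ hG hT)
    simp only [Ex.ev, hom_ev chartB _ hd.ne' hu.ne', hp, Int.cast_one] at h
    exact (mul_pos_iff_of_pos_left (mul_pos (pow_pos hd _) (pow_pos hu _))).1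
      (lt_of_lt_of_le one_pos (sub_nonneg.1 h))

theorem quad_nonneg {c8 c71 c70 c62 c61 c60 d al be a b : ℝ} (ha : 0 ≤ a) (hb : 0 ≤ b)
    (h62 : 0 ≤ c62) (h61 : 0 ≤ c61) (h60 : 0 ≤ c60) (hd : 0 ≤ d)
    (hbound : d * a ≤ al * b + be) (hL : 0 < d → 0 < al * b + be)
    (h0 : d = 0 → 0 < al ∧ 0 < be)
    (s1 : 0 ≤ 2 * c62 * d + c71 * al) (s2 : 0 ≤ 2 * c61 * d + (c71 * be + c70 * al))
    (s3 : 0 ≤ 2 * c60 * d + c70 * be)
    (s4 : 0 ≤ c8 * (al * al) + c71 * (al * d) + c62 * (d * d))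
    (s5 : 0 ≤ 2 * (c8 * (al * be)) + (c71 * be + c70 * al) * d + c61 * (d * d))
    (s6 : 0 ≤ c8 * (be * be) + c70 * (be * d) + c60 * (d * d)) :
    0 ≤ c8 * a ^ 2 + (c71 * b + c70) * a + (c62 * b ^ 2 + c61 * b + c60) := by
  rcases hd.eq_or_lt with h | h
  · obtain ⟨hal, hbe⟩ := h0 h.symm
    subst h
    have e1 : 0 ≤ c71 := nonneg_of_mul_nonneg_left (by linarith) hal
    have e2 : 0 ≤ c70 := nonneg_of_mul_nonneg_left (by linarith) hbe
    have e3 : 0 ≤ c8 := nonneg_of_mul_nonneg_left (b := al * al) (by linarith) (mul_pos hal hal)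
    positivity
  · set L := al * b + be with hLd
    have hL0 := hL h
    set m := d * a with hm
    have hm0 : 0 ≤ m := mul_nonneg hd ha
    have hq : 0 ≤ c62 * b ^ 2 + c61 * b + c60 := by positivity
    have h1 : 0 ≤ (2 * c62 * d + c71 * al) * b ^ 2
        + (2 * c61 * d + (c71 * be + c70 * al)) * b + (2 * c60 * d + c70 * be) := by positivity
    have h2 : 0 ≤ (c8 * (al * al) + c71 * (al * d) + c62 * (d * d)) * b ^ 2
        + (2 * (c8 * (al * be)) + (c71 * be + c70 * al) * d + c61 * (d * d)) * b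
        + (c8 * (be * be) + c70 * (be * d) + c60 * (d * d)) := by positivity
    have key : (L * d) ^ 2 * (c8 * a ^ 2 + (c71 * b + c70) * a + (c62 * b ^ 2 + c61 * b + c60))
        = (L - m) ^ 2 * ((c62 * b ^ 2 + c61 * b + c60) * d ^ 2)
          + m * (L - m) * d * ((2 * c62 * d + c71 * al) * b ^ 2
            + (2 * c61 * d + (c71 * be + c70 * al)) * b + (2 * c60 * d + c70 * be))
          + m ^ 2 * ((c8 * (al * al) + c71 * (al * d) + c62 * (d * d)) * b ^ 2
            + (2 * (c8 * (al * be)) + (c71 * be + c70 * al) * d + c61 * (d * d)) * b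
            + (c8 * (be * be) + c70 * (be * d) + c60 * (d * d))) := by
      rw [hm, hLd]; ring
    have hLm : 0 ≤ L - m := sub_nonneg.2 hbound
    have hpos : 0 ≤ (L * d) ^ 2 * (c8 * a ^ 2 + (c71 * b + c70) * a
        + (c62 * b ^ 2 + c61 * b + c60)) := by rw [key]; positivity
    exact nonneg_of_mul_nonneg_right hpos (by positivity)

/-- The quadratic in the unscaled first weight. -/
def topQuad (S g U t a : ℝ) : ℝ :=
  Tv S g U 8 0 * a ^ 2 + (Tv S g U 7 1 * t + Tv S g U 7 0) * a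
    + (Tv S g U 6 2 * t ^ 2 + Tv S g U 6 1 * t + Tv S g U 6 0)

variable {t a : ℝ}

theorem topQuad_three {c : Sub} (ha : 0 ≤ a) (ht : 0 ≤ t) (h6 : ∀ j < 3, 0 ≤ Tv S g U 6 j)
    (hc : c.At S g U) (h : checkList c three = true) : 0 ≤ topQuad S g U t a := by
  have H : ∀ e ∈ three, 0 ≤ e.ev (pt3 S g U 0) := fun e he => hc.nonneg (checkList_mem h e he)
  simp only [three, List.mem_cons, List.not_mem_nil, or_false, forall_eq_or_imp, forall_eq] at H
  obtain ⟨h1, h2, h3⟩ := H
  have := h6 0 (by norm_num); have := h6 1 (by norm_num); have := h6 2 (by norm_num)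
  change 0 ≤ Tv S g U 8 0 at h1
  change 0 ≤ Tv S g U 7 1 at h2
  change 0 ≤ Tv S g U 7 0 at h3
  simp only [topQuad]
  positivity

theorem topQuad_six {c : Sub} {d al be : Ex} (ha : 0 ≤ a) (ht : 0 ≤ t)
    (h6 : ∀ j < 3, 0 ≤ Tv S g U 6 j) (hc : c.At S g U)
    (h : ∀ e ∈ six d al be, check 3 (hom c e).1 = true)
    (hd : 0 ≤ d.ev (pt3 S g U 0))
    (hb : d.ev (pt3 S g U 0) * a ≤ al.ev (pt3 S g U 0) * t + be.ev (pt3 S g U 0))
    (hL : 0 < d.ev (pt3 S g U 0) → 0 < al.ev (pt3 S g U 0) * t + be.ev (pt3 S g U 0))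
    (h0 : d.ev (pt3 S g U 0) = 0 → 0 < al.ev (pt3 S g U 0) ∧ 0 < be.ev (pt3 S g U 0)) :
    0 ≤ topQuad S g U t a := by
  have H : ∀ e ∈ six d al be, 0 ≤ e.ev (pt3 S g U 0) := fun e he => hc.nonneg (h e he)
  simp only [six, List.mem_cons, List.not_mem_nil, or_false, forall_eq_or_imp, forall_eq,
    Ex.ev] at H
  push_cast at H
  obtain ⟨s1, s2, s3, s4, s5, s6⟩ := H
  exact quad_nonneg ha ht (h6 2 (by norm_num)) (h6 1 (by norm_num)) (h6 0 (by norm_num)) hd hb hL
    h0 s1 s2 s3 s4 s5 s6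

theorem half_nonneg (hS : 3 < S) (hg : g < 1 / 2) (hU : uC S g ≤ U) :
    0 ≤ tUN S g U - (1 - g) * tP S g U := by
  have hε : 0 < 1 - 2 * g := by linarith
  have hD := e1D_pos hS hg
  have h : (1 - U) * e1D S g ≤ (1 - 2 * g) * e1N S g := by
    have : 1 - U ≤ (1 - 2 * g) * e1N S g / e1D S g := by
      rw [uC, ← mul_div_assoc] at hU; linarith
    exact (le_div_iff₀ hD).1 this
  have e : tUN S g U - (1 - g) * tP S g U
      = ((1 - 2 * g) * e1N S g - (1 - U) * e1D S g) + (1 - U - (1 - 2 * g)) ^ 2 := by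
    simp only [tUN, tP, e1N, e1D]; ring
  rw [e]
  linarith [sq_nonneg (1 - U - (1 - 2 * g))]

theorem sq_bound {k : ℝ} (h : k ≤ √g) (hk : 0 ≤ k) (hg : 0 ≤ g) : k ^ 2 ≤ g :=
  (pow_le_pow_left₀ hk h 2).trans_eq (Real.sq_sqrt hg)

theorem topQuad_nonneg {y s : ℝ} (G : Geom S g U y s) (hB : g ≤ 2 / 5 → U ^ 2 ≤ 6 * (y + g ^ 3))
    (D : Dom S g U) :
    0 ≤ topQuad S g U (wb S g U y s / s) (wa S g U y s / s) := by
  have hs := G.s_pos
  have ha : 0 ≤ wa S g U y s / s := (div_pos G.a_pos hs).le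
  have ht : 0 ≤ wb S g U y s / s := div_nonneg G.b_nonneg hs.le
  have hS : 0 ≤ S := by linarith [D.S_gt]
  have hfP : 0 < (1 - g) * tP S g U := mul_pos (by linarith [D.g_lt]) G.P_pos
  have h6 : ∀ j < 3, 0 ≤ Tv S g U 6 j := by
    intro j hj
    have h1 := D.coef_nonneg (i := 6) (j := j) (by norm_num) (by omega)
    have h2 : Cv S g U 6 j = ((1 - g) * tP S g U) ^ (6 - 5) * Tv S g U 6 j :=
      top_eq hS D.g_pos.le D.U_pos.le (p := (6, j)) (by interval_cases j <;> simp)
    rw [h2] at h1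
    exact (mul_nonneg_iff_of_pos_left (pow_pos hfP _)).1 h1
  have hhalf : ∀ c : Sub, c.At S g U → (∀ e ∈ sixH, check 3 (hom c e).1 = true) →
      0 ≤ tUN S g U - (1 - g) * tP S g U →
      0 ≤ topQuad S g U (wb S g U y s / s) (wa S g U y s / s) := by
    intro c hc h hH
    have hfAu : 0 < (1 - g) * tP S g U * (tA S g U * tu g U) :=
      mul_pos hfP (mul_pos G.A_pos G.u_pos)
    have hfAD : 0 < (1 - g) * tP S g U * (tA S g U * tD S g U) :=
      mul_pos hfP (mul_pos G.A_pos G.D_pos)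
    refine topQuad_six ha ht h6 hc h ?_ ?_ ?_ ?_ <;>
      simp only [Ex.ev, ev_xUN, ev_xf, ev_xP, ev_xfP, ev_xA, ev_xu, ev_xD]
    · exact hH
    · rw [← mul_le_mul_iff_of_pos_right hs]
      have := G.half
      field_simp
      linarith
    · intro _; positivity
    · exact fun _ => ⟨hfAu, hfAD⟩
  have hbar : ∀ c : Sub, c.At S g U → checkList c sixB = true → g ≤ 2 / 5 →
      3 * √g ^ 3 ≤ U → 0 ≤ topQuad S g U (wb S g U y s / s) (wa S g U y s / s) := by
    intro c hc h hg hU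
    have hV : 0 < U ^ 2 - 6 * g ^ 3 := by
      have e : (3 * √g ^ 3) ^ 2 = 9 * (√g ^ 2) ^ 3 := by ring
      rw [Real.sq_sqrt D.g_pos.le] at e
      have := pow_le_pow_left₀ (by positivity) hU 2
      have := pow_pos D.g_pos 3
      linarith
    have hy : 0 < 6 * tUN S g U * (wb S g U y s + tQ S g U * s) := by
      rw [show 6 * tUN S g U * (wb S g U y s + tQ S g U * s)
        = 6 * (y * wden S g U y s) by rw [y_mul_den]; ring]
      exact mul_pos (by norm_num) (mul_pos G.y_pos G.den_pos)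
    have e : 6 * tUN S g U * (wb S g U y s / s) + 6 * (tUN S g U * tQ S g U)
        = 6 * tUN S g U * (wb S g U y s + tQ S g U * s) / s := by field_simp
    refine topQuad_six ha ht h6 hc (checkList_mem h) ?_ ?_ ?_ ?_ <;>
      simp only [Ex.ev, xV, ev_xU, ev_xg, ev_xUN, ev_xQ] <;> push_cast
    · exact hV.le
    · rw [e, ← mul_div_assoc, div_le_div_iff_of_pos_right hs]
      exact G.barrier (hB hg)
    · intro _; rw [e]; exact div_pos hy hs
    · intro h0; exact absurd h0 hV.ne'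
  have hsq := Real.sq_sqrt D.g_pos.le
  have hγ0 := Real.sqrt_nonneg g
  rcases lt_or_ge g (9 / 25) with hg | hg
  · rcases lt_or_ge U (3 * √g ^ 3) with hU | hU
    · exact topQuad_three ha ht h6 (at_cube0 D.S_gt D.g_pos hg D.U_pos.le hU) check_cube0
    rcases lt_or_ge (√g) (12 / 25) with hγ | hγ
    · refine hbar chartB1 ?_ check_B1 (by linarith) hU
      have h := at_cubeSub (a := 0) (b := 12) (k := 1) (m := 1) D.S_gt D.g_pos (by norm_num)
        (lo := 0) (hi := 12 / 25) (by norm_num) (by norm_num) (by norm_num) hγ0 hγ hU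
        (by simpa using D.U_lt)
      obtain ⟨σ, G', T, h1, h2, h3, h4, h5, h6⟩ := h
      refine ⟨σ, G', T, h1, h2, h3, ?_, ?_, ?_⟩
      · simpa [chartB1, cubeSub, one1, Ex.ev] using h4
      · simpa [chartB1, cubeSub, one1, Ex.ev] using h5
      · rw [← h6]; funext i; simp [chartB1, cubeSub, Sub.pt, one1, Ex.ev]
    rcases lt_or_ge U (9 / 10 * uT S g) with hU9 | hU9
    · refine hbar chartB2 ?_ check_B2 (by linarith) hU
      refine at_cubeSub (a := 12) (b := 15) (k := 9) (m := 10) D.S_gt D.g_pos (by norm_num)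
        (lo := 12 / 25) (hi := 15 / 25) (by norm_num) (by norm_num) (by norm_num) hγ ?_ hU
        (by push_cast; linarith)
      by_contra hc
      push Not at hc
      have := sq_bound hc (by norm_num) D.g_pos.le
      linarith
    · have hg2 : 144 / 625 ≤ g := le_of_eq_of_le (by norm_num) (sq_bound hγ (by norm_num) D.g_pos.le)
      have hc := at_T D.S_gt hg2 hg hU9 D.U_lt
      refine hhalf chartT hc (fun e he => checkList_mem check_T e (List.mem_cons_of_mem _ he)) ?_
      have := hc.nonneg (checkList_mem check_T xH List.mem_cons_self)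
      simpa only [xH, Ex.ev, ev_xUN, ev_xfP] using this
  · rcases le_or_gt (uC S g) U with hU | hU
    · exact hhalf chartH (at_H D.S_gt hg D.g_lt hU D.U_lt) (checkList_mem check_H)
        (half_nonneg D.S_gt D.g_lt hU)
    rcases lt_or_ge g (gA S) with hgA | hgA
    · exact topQuad_three ha ht h6 (at_P D.S_gt hg hgA D.U_pos.le hU) check_P
    · exact topQuad_three ha ht h6 (at_Q D.S_gt hgA D.g_lt D.U_gt hU) check_Q

/-- `0 < cE` on the forward region with the upper barrier. -/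
theorem cE_pos {S f x z w : ℝ} (hS : 3 < S) (R : Orbit.InRegion S f x z w)
    (hB : 3 / 5 ≤ f → (S + 2) * z - f * S ≤ 0 ∨
      ((S + 2) * z - f * S) ^ 2 ≤ 6 * (1 - x + (1 - f) ^ 3)) :
    0 < cE S f x z w := by
  have G := geom_of_inRegion hS R
  set g := 1 - f with hg
  set U := (S + 2) * z - f * S with hU
  set y := 1 - x with hy
  set r := (S + 2) * (f - w) with hr
  set s := x * r with hs
  have D : Dom S g U := by
    refine ⟨hS, G.g_pos, G.g_lt_half, G.U_pos, G.U_gt, ?_⟩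
    rw [uT, lt_div_iff₀ (by linarith)]
    linarith [G.U_P]
  have hB' : g ≤ 2 / 5 → U ^ 2 ≤ 6 * (y + g ^ 3) := fun h =>
    (hB (by linarith)).resolve_left (not_le.2 G.U_pos)
  have hQ := topQuad_nonneg G hB' D
  set p := (1 - g) * tP S g U with hp
  have hp0 : 0 < p := mul_pos (by linarith [G.g_lt_half]) G.P_pos
  have hs0 := G.s_pos
  set t := wb S g U y s / s with ht
  set a₀ := wa S g U y s / s with ha₀
  set a := a₀ / p with ha
  have ha₀0 : 0 < a₀ := div_pos G.a_pos hs0
  have ha0 : 0 < a := div_pos ha₀0 hp0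
  have ht0 : 0 ≤ t := div_nonneg G.b_nonneg hs0.le
  -- the form is positive
  have hF : 0 < formR S g U t a 1 p := by
    have hsum := form_sum S g U t a
    rw [← hp] at hsum
    rw [hsum, show (9 : ℕ) = 6 + 3 from rfl, sum_range_add]
    refine add_pos_of_pos_of_nonneg ?_ ?_
    · refine sum_pos' (fun i hi => mul_nonneg (pow_nonneg ha0.le _) (sum_nonneg fun j hj =>
        mul_nonneg (pow_nonneg ht0 _) (D.coef_nonneg (by have := mem_range.1 hi; omega)
          (mem_range.1 hj)))) ⟨5, by simp, mul_pos (pow_pos ha0 _) ?_⟩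
      refine sum_pos' (fun j hj => mul_nonneg (pow_nonneg ht0 _) (D.coef_nonneg (by norm_num)
        (mem_range.1 hj))) ⟨0, by simp, ?_⟩
      simpa using D.strict
    · have hS0 : 0 ≤ S := by linarith
      have e : ∀ q ∈ [((8 : ℕ), (0 : ℕ)), (7, 1), (7, 0), (6, 2), (6, 1), (6, 0)],
          Cv S g U q.1 q.2 = p ^ (q.1 - 5) * Tv S g U q.1 q.2 :=
        fun q hq => top_eq hS0 G.g_pos.le G.U_pos.le hq
      simp only [List.mem_cons, List.not_mem_nil, or_false, forall_eq_or_imp, forall_eq] at e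
      obtain ⟨e1, e2, e3, e4, e5, e6⟩ := e
      simp only [sum_range_succ, sum_range_zero, zero_add, Nat.reduceAdd, Nat.reduceSub, pow_zero,
        one_mul, pow_one, e1, e2, e3, e4, e5, e6]
      have : 0 ≤ a ^ 6 * p * topQuad S g U t a₀ := by positivity
      refine this.trans_eq ?_
      rw [topQuad, show a₀ = a * p by rw [ha]; field_simp]
      ring
  -- back to `cE`
  set k := wden S g U y s / s with hk
  have hk0 : 0 < k := div_pos G.den_pos hs0
  have eX := x_mul_den S g U y s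
  have eY := y_mul_den S g U y s
  have eS := den_eq S g U y s
  have key := form_eq S g U t (f := f) (x := x) (z := z) (w := w) (k := k) (p := p) (a := a) r
    hU hr hg
    (by
      rw [hk, ha, ha₀, ht]
      field_simp
      rw [hp] at *
      rw [show (1 - y : ℝ) = x by rw [hy]; ring] at eX
      linear_combination -eX)
    (by
      rw [hk, ha, ha₀, ht, wden]
      field_simp
      ring)
    (by
      rw [hk, ht]
      field_simp
      simp only [tUN] at eY
      linear_combination -eY)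
    (by
      rw [hk, hp, eS]
      field_simp
      rw [hs]; ring)
  have hE0 : 0 < S * (1 - 2 * g) - 2 * g + U := by linarith [G.U_gt]
  have hpos : 0 < k ^ 8 * x ^ 5 * ((S + 2) ^ 5 * cE S f x z w) := by
    rw [← key]; positivity
  have hx : 0 < x := R.x_pos
  have hN : 0 < S + 2 := by linarith
  exact (mul_pos_iff_of_pos_left (pow_pos hN 5)).1
    ((mul_pos_iff_of_pos_left (by positivity)).1 hpos)

end

end Vale.Agent.P100.Ineq.Tri
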