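import Vale.Agent.P100.Ineq.Kron

/-!
# Expressions as coefficients, and their homogenised substitution

`Ser` is a polynomial in one variable with `Kron.Ex` coefficients. `hom` substitutes
`(s, gn / gd, un / ud)` for the first three variables and clears the denominators.
-/

namespace Vale.Agent.P100.Ineq.Tri

open Kron

/-- The value of a series at `a`. -/
noncomputable def evS (v : ℕ → ℝ) (a : ℝ) : List Ex → ℝ
  | [] => 0
  | x :: l => x.ev v + a * evS v a l

/-- Sum of series. -/
def addS : List Ex → List Ex → List Ex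
  | [], m => m
  | x :: l, [] => x :: l
  | x :: l, y :: m => .add x y :: addS l m

/-- Multiple of a series. -/
def scaleS (k : Ex) : List Ex → List Ex
  | [] => []
  | x :: l => .mul k x :: scaleS k l

/-- Difference of series. -/
def subS (l m : List Ex) : List Ex := addS l (scaleS (.num (-1)) m)

/-- Product of series. -/
def mulS : List Ex → List Ex → List Ex
  | [], _ => []
  | [x], m => scaleS x m
  | x :: y :: l, m => addS (scaleS x m) (.num 0 :: mulS (y :: l) m)

theorem evS_add (v : ℕ → ℝ) (a : ℝ) : ∀ l m, evS v a (addS l m) = evS v a l + evS v a m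
  | [], m => by simp [addS, evS]
  | _ :: _, [] => by simp [addS, evS]
  | x :: l, y :: m => by simp only [addS, evS, Ex.ev, evS_add v a l m]; ring

theorem evS_scale (v : ℕ → ℝ) (a : ℝ) (k : Ex) : ∀ l, evS v a (scaleS k l) = k.ev v * evS v a l
  | [] => by simp [scaleS, evS]
  | x :: l => by simp only [scaleS, evS, Ex.ev, evS_scale v a k l]; ring

theorem evS_sub (v : ℕ → ℝ) (a : ℝ) (l m : List Ex) :
    evS v a (subS l m) = evS v a l - evS v a m := by
  simp only [subS, evS_add, evS_scale, Ex.ev]; push_cast; ring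

theorem evS_mul (v : ℕ → ℝ) (a : ℝ) : ∀ l m, evS v a (mulS l m) = evS v a l * evS v a m
  | [], m => by simp [mulS, evS]
  | [x], m => by simp [mulS, evS_scale, evS]
  | x :: y :: l, m => by
    simp only [mulS, evS_add, evS_scale, evS, Ex.ev, evS_mul v a (y :: l) m]
    push_cast; ring

/-- Power of a series. -/
def powS (l : List Ex) : ℕ → List Ex
  | 0 => [.num 1]
  | 1 => l
  | n + 2 => mulS (powS l (n + 1)) l

theorem evS_pow (v : ℕ → ℝ) (a : ℝ) (l : List Ex) : ∀ n, evS v a (powS l n) = evS v a l ^ n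
  | 0 => by simp [powS, evS, Ex.ev]
  | 1 => by simp [powS]
  | n + 2 => by rw [powS, evS_mul, evS_pow v a l (n + 1)]; ring

/-- The expression as a series in the variable `k`. -/
def ser (k : ℕ) : Ex → List Ex
  | .num c => [.num c]
  | .var i => if i = k then [.num 0, .num 1] else [.var i]
  | .add a b => addS (ser k a) (ser k b)
  | .sub a b => subS (ser k a) (ser k b)
  | .mul a b => mulS (ser k a) (ser k b)
  | .pow a n => powS (ser k a) n

theorem evS_ser (v : ℕ → ℝ) (k : ℕ) : ∀ e : Ex, evS v (v k) (ser k e) = e.ev v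
  | .num c => by simp [ser, evS, Ex.ev]
  | .var i => by
    simp only [ser]
    split_ifs with h
    · simp [evS, Ex.ev, h]
    · simp [evS, Ex.ev]
  | .add a b => by simp [ser, evS_add, Ex.ev, evS_ser v k a, evS_ser v k b]
  | .sub a b => by simp [ser, evS_sub, Ex.ev, evS_ser v k a, evS_ser v k b]
  | .mul a b => by simp [ser, evS_mul, Ex.ev, evS_ser v k a, evS_ser v k b]
  | .pow a n => by simp [ser, evS_pow, Ex.ev, evS_ser v k a]

/-- Denominators and numerators of a substitution. -/
structure Sub where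
  s : Ex
  gn : Ex
  gd : Ex
  un : Ex
  ud : Ex

/-- `b ^ n`, omitted for `n = 0`. -/
def pad (b : Ex) : ℕ → Ex → Ex
  | 0, e => e
  | n + 1, e => .mul (.pow b (n + 1)) e

theorem pad_ev (v : ℕ → ℝ) (b e : Ex) : ∀ n, (pad b n e).ev v = b.ev v ^ n * e.ev v
  | 0 => by simp [pad]
  | _ + 1 => by simp [pad, Ex.ev]

/-- The substituted expression with its degrees in the two fractions. -/
def hom (c : Sub) : Ex → Ex × ℕ × ℕ
  | .num k => (.num k, 0, 0)
  | .var i => if i = 0 then (c.s, 0, 0) else if i = 1 then (c.gn, 1, 0)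
      else if i = 2 then (c.un, 0, 1) else (.var i, 0, 0)
  | .add a b =>
    let p := hom c a
    let q := hom c b
    (.add (pad c.ud (q.2.2 - p.2.2) (pad c.gd (q.2.1 - p.2.1) p.1))
      (pad c.ud (p.2.2 - q.2.2) (pad c.gd (p.2.1 - q.2.1) q.1)),
      max p.2.1 q.2.1, max p.2.2 q.2.2)
  | .sub a b =>
    let p := hom c a
    let q := hom c b
    (.sub (pad c.ud (q.2.2 - p.2.2) (pad c.gd (q.2.1 - p.2.1) p.1))
      (pad c.ud (p.2.2 - q.2.2) (pad c.gd (p.2.1 - q.2.1) q.1)),
      max p.2.1 q.2.1, max p.2.2 q.2.2)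
  | .mul a b =>
    let p := hom c a
    let q := hom c b
    (.mul p.1 q.1, p.2.1 + q.2.1, p.2.2 + q.2.2)
  | .pow a n =>
    let p := hom c a
    (.pow p.1 n, n * p.2.1, n * p.2.2)

/-- The point after substitution. -/
noncomputable def Sub.pt (c : Sub) (v : ℕ → ℝ) (i : ℕ) : ℝ :=
  if i = 0 then c.s.ev v else if i = 1 then c.gn.ev v / c.gd.ev v
  else if i = 2 then c.un.ev v / c.ud.ev v else v i

theorem hom_ev (c : Sub) (v : ℕ → ℝ) (hg : c.gd.ev v ≠ 0) (hu : c.ud.ev v ≠ 0) : ∀ e : Ex,
    (hom c e).1.ev v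
      = c.gd.ev v ^ (hom c e).2.1 * c.ud.ev v ^ (hom c e).2.2 * e.ev (c.pt v)
  | .num k => by simp [hom, Ex.ev]
  | .var i => by
    simp only [hom, Sub.pt, Ex.ev]
    split_ifs <;> simp [Ex.ev, mul_div_cancel₀ _ hg, mul_div_cancel₀ _ hu]
  | .add a b => by
    simp only [hom, Ex.ev, pad_ev, hom_ev c v hg hu a, hom_ev c v hg hu b]
    set p := hom c a
    set q := hom c b
    have e1 : max p.2.1 q.2.1 = (q.2.1 - p.2.1) + p.2.1 := by omega
    have e2 : max p.2.2 q.2.2 = (q.2.2 - p.2.2) + p.2.2 := by omega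
    have e1' : max p.2.1 q.2.1 = (p.2.1 - q.2.1) + q.2.1 := by omega
    have e2' : max p.2.2 q.2.2 = (p.2.2 - q.2.2) + q.2.2 := by omega
    rw [mul_add]
    nth_rw 1 [e1, e2]
    rw [e1', e2']
    simp only [pow_add]; ring
  | .sub a b => by
    simp only [hom, Ex.ev, pad_ev, hom_ev c v hg hu a, hom_ev c v hg hu b]
    set p := hom c a
    set q := hom c b
    have e1 : max p.2.1 q.2.1 = (q.2.1 - p.2.1) + p.2.1 := by omega
    have e2 : max p.2.2 q.2.2 = (q.2.2 - p.2.2) + p.2.2 := by omega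
    have e1' : max p.2.1 q.2.1 = (p.2.1 - q.2.1) + q.2.1 := by omega
    have e2' : max p.2.2 q.2.2 = (p.2.2 - q.2.2) + q.2.2 := by omega
    rw [mul_sub]
    nth_rw 1 [e1, e2]
    rw [e1', e2']
    simp only [pow_add]; ring
  | .mul a b => by
    simp only [hom, Ex.ev, hom_ev c v hg hu a, hom_ev c v hg hu b, pow_add]; ring
  | .pow a n => by
    simp only [hom, Ex.ev, hom_ev c v hg hu a, mul_pow, ← pow_mul]
    ring

/-- A checked substitution gives a nonnegative value. -/
theorem nonneg_of_hom (n : ℕ) (c : Sub) (e : Ex) (h : check n (hom c e).1 = true) (v : ℕ → ℝ)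
    (hv : ∀ i < n, 0 ≤ v i) (hg : 0 < c.gd.ev v) (hu : 0 < c.ud.ev v) :
    0 ≤ e.ev (c.pt v) := by
  have := nonneg_of_check h hv
  rw [hom_ev c v hg.ne' hu.ne'] at this
  exact (mul_nonneg_iff_of_pos_left (by positivity)).1 this

end Vale.Agent.P100.Ineq.Tri
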