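import Vale.Agent.P100.Ineq.Normal
import Vale.Agent.P100.Ineq.Tri.Geom
import Vale.Agent.P100.Ineq.Tri.Series

/-!
# The expression `cE` as a homogeneous form in the weights

`serP` is the series in the first weight of `(S + 2) ^ 5 x ^ 5 cE den ^ 8`, with variables
`0 : S`, `1 : g`, `2 : U`, `3 : b / c`.
-/

namespace Vale.Agent.P100.Ineq.Tri

open Kron Kron.Ex

def xS : Ex := var 0
def xg : Ex := var 1
def xU : Ex := var 2
def xt : Ex := var 3

/-- `1 - g`. -/
def xf : Ex := sub (num 1) xg
/-- `1 - 2 g`. -/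
def xeps : Ex := sub (num 1) (mul (num 2) xg)
def xN : Ex := add xS (num 2)
def xA : Ex := sub (add (mul xg xS) (num 2)) xU
def xu : Ex := sub (mul (num 2) xf) xU
def xQ : Ex := sub (add (mul xf xS) (mul (num 2) xU)) (num 2)
def xP : Ex := sub (mul (num 2) (add (num 2) (mul xg xS))) (mul (add xS (num 4)) xU)
def xE0 : Ex := add (sub (mul xS xeps) (mul (num 2) xg)) xU
def xD : Ex := mul (mul (num 2) (add (mul xf xS) xU)) (sub (num 1) xU)
def xUN : Ex := mul xU xE0
def xfP : Ex := mul xf xP

/-- The form divided by `p ^ 5 E0`: `x den = p (θ + S + U) + a`, `den = A (u θ + D) + q a`,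
with `p = f P, q = 1` or, after dividing `a` by `f P`, `p = 1, q = f P`. -/
def serP (p q : Ex) : List Ex :=
  let X := [mul p (add xt (add xS xU)), num 1]
  let X0 := [mul p (add xt xS), num 1]
  let Sn := [mul p xUN]
  let Den := [mul xA (add (mul xu xt) xD), q]
  let Y0 := [mul xU (add xt xQ)]
  let NW := subS (scaleS (mul xN xf) X) Sn
  let NU := subS (scaleS xu X) Sn
  let NA := subS (scaleS (add xN xE0) X) Sn
  let Hd := addS (scaleS xg Den) (scaleS xE0 Y0)
  let V := addS (mulS Sn Den) (scaleS (mul xeps xN) (mulS X Hd))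
  let Qr := mulS NU (addS Den (scaleS (num 2) Hd))
  let PP := subS
    (addS
      (addS
        (scaleS (mul (num 4) (mul xS xN))
          (mulS (mulS NA Hd) (mulS (addS (scaleS (mul xf xE0) X0) Sn) Den)))
        (scaleS (mul xeps (sub (mul (num 4) (mul xg xS)) (pow xeps 2)))
          (mulS (mulS NA NA) (mulS Den Den))))
      (scaleS (mul (num 2) (mul xeps (add xS xeps))) (mulS (mulS NA Qr) Den)))
    (scaleS (mul xeps (pow (add xS (num 1)) 2)) (mulS Qr Qr))
  let L := addS
    (scaleS xS
      (addS (scaleS (mul p xU) (addS (scaleS (add (mul xf xS) xU) (mulS X Den))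
          (scaleS xE0 (mulS NU Y0))))
        (scaleS (num 2) (mulS (mulS NW Hd) X))))
    (scaleS (num 2)
      (subS
        (mulS NW (addS (scaleS (mul (num 2) xg) (mulS X0 Den))
          (mulS Y0 (subS (scaleS xE0 X0) NU))))
        (scaleS (mul p xU) (mulS NU Den))))
  subS (mulS (mulS (mulS X0 V) NW) PP)
    (scaleS (mul xeps xE0) (mulS (mulS NA Den) (mulS L L)))

/-- The coefficient of `a ^ i`, with `a` divided by `f P`. -/
def coefP (i : ℕ) : Ex := (serP (num 1) xfP).getD i (num 0)

/-- The coefficient of `a ^ i b ^ j` in the unscaled weight. -/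
def top (i j : ℕ) : Ex := (ser 3 ((serP xfP (num 1)).getD i (num 0))).getD j (num 0)

/-- The coefficient of `a ^ i b ^ j`. -/
def coef (i j : ℕ) : Ex := (ser 3 (coefP i)).getD j (num 0)

/-- Chart `g ≤ S / (2 (S + 1))`, `U ≤ U₀`. -/
def chartA : Sub :=
  let s := add (num 3) (var 0)
  let gd := mul (mul (num 2) (add s (num 1))) (add (num 1) (var 1))
  let gn := mul s (var 1)
  ⟨s, gn, gd, mul (mul (num 2) (var 2)) (add (mul (num 2) gd) (mul gn s)),
    mul (mul (add (num 1) (var 2)) (add s (num 4))) gd⟩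

/-- Chart `g ≥ S / (2 (S + 1))`. -/
def chartB : Sub :=
  let s := add (num 3) (var 0)
  let ed := mul (add s (num 1)) (add (num 1) (var 1))
  let hn := add (mul s (var 2)) (mul (add s (num 1)) (add s (num 4)))
  let hd := mul (add s (num 4)) (add (num 1) (var 2))
  ⟨s, sub ed (num 1), mul (num 2) ed, sub (mul ed hd) hn, mul ed hd⟩

end Vale.Agent.P100.Ineq.Tri
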